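import Vale.Agent.P004X.P004E.H3.EC
import Vale.Agent.P004X.H501.Alg
import Vale.Agent.P004X.H501.PS

/-!
# P004E, module W (part 4): the two-point Euler factor
-/

open Finset Real

namespace P004G.E3W

export P004X.Alg (qt norm_qt_le)

variable [Crv]

open P004G.H293 (Lp tt norm_tt_le' abs_lam_le Lp_eq three_le')

lemma conj_Lp {p : ℕ} (hp : 0 < p) (z : ℂ) (x : ℝ) : (starRingEnd ℂ) (Lp p (1 + z) x) =
    (1 - (lam p : ℂ) * (x * (starRingEnd ℂ) (tt p z)) + (x * (starRingEnd ℂ) (tt p z)) ^ 2)⁻¹ := by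
  rw [Lp_eq hp]
  simp only [map_inv₀, map_add, map_sub, map_one, map_mul, map_pow, Complex.conj_ofReal]

/-- the two-point Euler factor -/
theorem two_point (_hc : StCoef) {p : ℕ} (hp : p.Prime) (hb : ¬ p ∣ bd) {z z' : ℂ}
    (hz : 0 ≤ z.re) (hz' : 0 ≤ z'.re) :
    ‖E1c p (fun x => Lp p (1 + z) x * (starRingEnd ℂ) (Lp p (1 + z') x)) -
      (1 + qt (lam p) (tt p z) ((starRingEnd ℂ) (tt p z')))‖ ≤ 10 * AW.er p := by
  have hp3 := three_le' hp hb
  set r : ℝ := (p : ℝ) ^ (-(1 / 2) : ℝ) with hrdef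
  have hp0 : (0 : ℝ) < p := by exact_mod_cast hp.pos
  have hr2 : r ^ 2 = 1 / p := AW.rp_sq p
  have h := P004X.Alg.two_point_alg (l := lam p) (t := tt p z) (u := (starRingEnd ℂ) (tt p z'))
    (r := r) (m := AW.pd p) (norm_tt_le' hp3 hz)
    (by rw [RCLike.norm_conj]; exact norm_tt_le' hp3 hz') (AW.rp_le hp hb) (AW.lam_rp' hp hb)
    (AW.rp_le_pd hp) ((AW.lam_rp hp hb).trans (by linarith [AW.pd_nonneg p]))
  have hE : (1 + lam p ^ 2) * r ^ 2 * AW.pd p ≤ AW.er p := by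
    rw [AW.er_eq, mul_comm (AW.pd p)]
    exact mul_le_mul_of_nonneg_right (AW.lam_sq_rp hp hb) (AW.pd_nonneg p)
  refine le_trans (le_trans (le_of_eq ?_) h) (by linarith)
  congr 2
  unfold E1c
  have e1 : ((1 : ℂ) / p) = (r : ℂ) ^ 2 := by
    have : ((r ^ 2 : ℝ) : ℂ) = ((1 / p : ℝ) : ℂ) := by rw [hr2]
    push_cast at this
    exact this.symm
  rw [e1]
  simp only [conj_Lp hp.pos, Lp_eq hp.pos]
  push_cast
  simp only [zero_mul, mul_zero, sub_zero, ne_eq, OfNat.ofNat_ne_zero, not_false_eq_true, zero_pow,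
    add_zero, inv_one, one_mul, mul_one, neg_mul, map_inv₀, map_add, map_sub, map_one, map_mul,
    map_pow, map_neg, Complex.conj_ofReal]

/-- the second order term is bounded by the weight -/
theorem norm_qt_wq {p : ℕ} (hp : p.Prime) (hb : ¬ p ∣ bd) {z z' : ℂ}
    (hz : 0 ≤ z.re) (hz' : 0 ≤ z'.re) :
    ‖qt (lam p) (tt p z) ((starRingEnd ℂ) (tt p z'))‖ ≤ 3 * AW.wq p := by
  have hp3 := three_le' hp hb
  have h1 := norm_qt_le (l := lam p) (norm_tt_le' hp3 hz) (u := (starRingEnd ℂ) (tt p z'))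
    (by rw [RCLike.norm_conj]; exact norm_tt_le' hp3 hz')
  exact h1.trans (by linarith [AW.lam_sq_rp hp hb])

theorem wq_sq_le {p : ℕ} (hp : p.Prime) (hb : ¬ p ∣ bd) : AW.wq p ^ 2 ≤ 2 * AW.er p := by
  have h1 := AW.wq_le_pd hp hb
  have h2 := AW.pd_le_one hp
  have h3 := AW.pd_nonneg p
  have h4 := AW.wq_nonneg p
  rw [AW.er_eq]
  have h5 : AW.wq p ≤ 2 * AW.pd p := by nlinarith
  nlinarith

lemma norm_one_add_le (q : ℂ) : ‖1 + q‖ ≤ Real.exp (q.re + ‖q‖ ^ 2 / 2) := by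
  refine (sq_le_sq₀ (norm_nonneg _) (Real.exp_pos _).le).1 ?_
  rw [← Real.exp_nat_mul]
  have h1 : ‖1 + q‖ ^ 2 = 1 + (2 * q.re + ‖q‖ ^ 2) := by
    rw [← Complex.normSq_eq_norm_sq, ← Complex.normSq_eq_norm_sq, Complex.normSq_apply,
      Complex.normSq_apply]
    simp only [Complex.add_re, Complex.one_re, Complex.add_im, Complex.one_im]
    ring
  rw [h1]
  have := Real.add_one_le_exp (2 * q.re + ‖q‖ ^ 2)
  refine (by linarith : 1 + (2 * q.re + ‖q‖ ^ 2) ≤ Real.exp (2 * q.re + ‖q‖ ^ 2)).trans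
    (le_of_eq ?_)
  congr 1
  push_cast
  ring

/-- exponential bound for the two-point factor -/
theorem two_point_exp (hc : StCoef) {p : ℕ} (hp : p.Prime) (hb : ¬ p ∣ bd) {z z' : ℂ}
    (hz : 0 ≤ z.re) (hz' : 0 ≤ z'.re) :
    ‖E1c p (fun x => Lp p (1 + z) x * (starRingEnd ℂ) (Lp p (1 + z') x))‖ ≤
      Real.exp ((qt (lam p) (tt p z) ((starRingEnd ℂ) (tt p z'))).re + 100 * AW.er p) := by
  have h := two_point hc hp hb hz hz'
  have hqn := norm_qt_wq hp hb hz hz'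
  set q := qt (lam p) (tt p z) ((starRingEnd ℂ) (tt p z')) with hq
  set ε : ℝ := AW.er p with hε
  have hw := AW.wq_le hp hb
  have hw0 := AW.wq_nonneg p
  have hw2 := wq_sq_le hp hb
  have hq2 : ‖q‖ ^ 2 / 2 ≤ 9 * ε := by
    have h1 : ‖q‖ ^ 2 ≤ (3 * AW.wq p) ^ 2 := by gcongr
    rw [← hε] at hw2
    nlinarith
  have hε0 : 0 ≤ ε := AW.er_nonneg p
  set X := q.re + ‖q‖ ^ 2 / 2 with hX
  have hXl : -(1 / 2) ≤ X := by
    have := (abs_le.1 (Complex.abs_re_le_norm q)).1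
    have h5 : 0 ≤ ‖q‖ ^ 2 / 2 := by positivity
    linarith
  have h1 : ‖E1c p (fun x => Lp p (1 + z) x * (starRingEnd ℂ) (Lp p (1 + z') x))‖ ≤
      Real.exp X + 10 * ε := by
    have := norm_le_norm_add_norm_sub' (E1c p (fun x => Lp p (1 + z) x *
      (starRingEnd ℂ) (Lp p (1 + z') x))) (1 + q)
    have h2 := norm_one_add_le q
    linarith
  refine h1.trans ?_
  have h2 : 1 / 2 ≤ Real.exp X := by
    linarith [Real.add_one_le_exp X]
  have h3 : Real.exp X + 10 * ε ≤ Real.exp X * (1 + 20 * ε) := by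
    nlinarith [mul_nonneg hε0 (sub_nonneg.2 h2)]
  refine h3.trans ?_
  have h4 : 1 + 20 * ε ≤ Real.exp (20 * ε) := by
    linarith [Real.add_one_le_exp (20 * ε)]
  calc Real.exp X * (1 + 20 * ε) ≤ Real.exp X * Real.exp (20 * ε) := by gcongr
    _ = Real.exp (X + 20 * ε) := by rw [← Real.exp_add]
    _ ≤ _ := Real.exp_le_exp.2 (by rw [hX]; linarith)

end P004G.E3W
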